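import Vale.Agent.P286ET6.Snake

/-!
# The exactness axioms of the two pairings
-/

namespace Vale.Agent.P286ET6

open CategoryTheory TensorProduct Vale.Agent.P286ET Ix

noncomputable section

variable {T T' : TDat Ix} {c c' : ℂ} (g : Mg T T')

/-- The case of the composition of `O(Δ)` with `O(-Δ)`. -/
theorem snake1 (K : Ker T T' c) (L : Ker T' T c')
    (eK : ∀ i j, (K.K i j).V →ₗ[ℂ] g.S.Q) (eL : ∀ j k, (L.K j k).V →ₗ[ℂ] g.S.Q)
    (iK : ∀ i j, Function.Injective (eK i j)) (iL : ∀ j k, Function.Injective (eL j k))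
    (sK : ∀ i j (y : T'.R j) κ, eK i j (y • κ) = g.S.i2 (T'.tau (tn j) y) * eK i j κ)
    (sL : ∀ j k (y : T'.R j) l, eL j k (y • l) = g.S.i2 (T'.tau (tn j) y) * eL j k l)
    (cK : ∀ i j κ, eK i n (K.r (𝟙 i) (tn j) κ) = eK i j κ)
    (cL : ∀ j k l, eL n k (L.r (tn j) (𝟙 k) l) = eL j k l)
    (rK : ∀ i j q, (∃ κ, eK i j κ = q) ↔
      ∃ α β, q = g.S.emb i j α + g.S.emb i j β * g.S.Gf g.κ g.G g.h i j)
    (rL : ∀ j k q, (∃ l, eL j k l = q) ↔ ∃ ξ, g.κ.mul k j ξ = 0 ∧ g.S.emb k j ξ = q)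
    (i k : Ix) (p : (K.K i n).V →ₗ[ℂ] (L.K n k).V →ₗ[ℂ] T.R (sup i k))
    (p_m : ∀ (y : T'.R n) κ l, p (y • κ) l = p κ (y • l))
    (hp : ∀ κ l, ∃ ζ, g.S.emb n n ζ = eK i n κ * eL n k l ∧
      T.tau (tn (sup i k)) (p κ l) = trr g ζ) :
    (∀ (x : XX K L i a k) (y : XX K L i b k), xr K L i a k x = xr K L i b k y → x = 0 ∧ y = 0) ∧
    (∀ z : XX K L i n k, tlift p p_m z = 0 →
      ∃ (x : XX K L i a k) (y : XX K L i b k), z = xr K L i a k x - xr K L i b k y) ∧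
    Function.Surjective (tlift p p_m : XX K L i n k → _) := by
  have h := fun j => exists_mu' g i j k (eK i j) (eL j k) (iK i j) (iL j k) (sK i j) (sL j k)
    (rK i j) (rL j k)
  choose μ m1 m2 m3 using h
  have e : ∀ j x, μ n (xr K L i j k x) = μ j x := by
    intro j x
    induction x using TensorProduct.induction_on with
    | zero => rw [map_zero, map_zero, map_zero]
    | tmul κ l =>
      obtain ⟨ξ, h1, h2⟩ := m2 j κ l
      obtain ⟨ξ', h1', h2'⟩ := m2 n (K.r (𝟙 i) (tn j) κ) (L.r (tn j) (𝟙 k) l)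
      rw [xr, tmap_tmul, h2, h2', cK, io_eq g (h1'.trans ((cL j k l).trans h1.symm))]
    | add x x' h h' => rw [map_add, map_add, map_add, h, h']
  refine snake0 i k _ rfl (μ a) (μ b) (μ n) _ _ _ (m1 a) (m1 b) (m1 n) (m3 a) (m3 b) (m3 n)
    (e a) (e b) fun z => ?_
  induction z using TensorProduct.induction_on with
  | zero => exact ⟨0, by simp, by simp⟩
  | tmul κ l =>
    obtain ⟨ζ, h1, h2⟩ := hp κ l
    obtain ⟨ξ, h3, h4⟩ := m2 n κ l
    refine ⟨ζ, ?_, by rw [tlift_tmul, h2]⟩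
    rw [h1, h4, map_mul, mm_io, h3, mm_tmul, map_one, map_one, mul_one]
  | add z z' h h' =>
    obtain ⟨ζ, h1, h2⟩ := h
    obtain ⟨ζ', h1', h2'⟩ := h'
    exact ⟨ζ + ζ', by simp only [map_add, h1, h1'], by simp only [map_add, h2, h2']⟩

/-- The case of the composition of `O(-Δ)` with `O(Δ)`. -/
theorem snake2 (L : Ker T T' c) (K : Ker T' T c')
    (eL : ∀ k j, (L.K k j).V →ₗ[ℂ] g.S.Q) (eK : ∀ j i, (K.K j i).V →ₗ[ℂ] g.S.Q)
    (iL : ∀ k j, Function.Injective (eL k j)) (iK : ∀ j i, Function.Injective (eK j i))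
    (sL : ∀ k j (y : T'.R j) l, eL k j (y • l) = g.S.i2 (T'.tau (tn j) y) * eL k j l)
    (sK : ∀ j i (y : T'.R j) κ, eK j i (y • κ) = g.S.i2 (T'.tau (tn j) y) * eK j i κ)
    (cL : ∀ k j l, eL k n (L.r (𝟙 k) (tn j) l) = eL k j l)
    (cK : ∀ j i κ, eK n i (K.r (tn j) (𝟙 i) κ) = eK j i κ)
    (rL : ∀ k j q, (∃ l, eL k j l = q) ↔ ∃ ξ, g.κ.mul k j ξ = 0 ∧ g.S.emb k j ξ = q)
    (rK : ∀ j i q, (∃ κ, eK j i κ = q) ↔
      ∃ α β, q = g.S.emb i j α + g.S.emb i j β * g.S.Gf g.κ g.G g.h i j)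
    (k i : Ix) (p : (L.K k n).V →ₗ[ℂ] (K.K n i).V →ₗ[ℂ] T.R (sup k i))
    (p_m : ∀ (y : T'.R n) l κ, p (y • l) κ = p l (y • κ))
    (hp : ∀ l κ, ∃ ζ, g.S.emb n n ζ = eL k n l * eK n i κ ∧
      T.tau (tn (sup k i)) (p l κ) = trr g ζ) :
    (∀ (x : XX L K k a i) (y : XX L K k b i), xr L K k a i x = xr L K k b i y → x = 0 ∧ y = 0) ∧
    (∀ z : XX L K k n i, tlift p p_m z = 0 →
      ∃ (x : XX L K k a i) (y : XX L K k b i), z = xr L K k a i x - xr L K k b i y) ∧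
    Function.Surjective (tlift p p_m : XX L K k n i → _) := by
  have h := fun j => exists_mu' g i j k (eK j i) (eL k j) (iK j i) (iL k j) (sK j i) (sL k j)
    (rK j i) (rL k j)
  choose μ m1 m2 m3 using h
  let ν : ∀ j, XX L K k j i →ₗ[ℂ] g.S.Q ⊗[ℂ] T.R k := fun j =>
    μ j ∘ₗ (TensorProduct.comm (T'.R j) (L.K k j).V (K.K j i).V).toLinearMap.restrictScalars ℂ
  have n0 : ∀ j l κ, ν j (l ⊗ₜ κ) = μ j (κ ⊗ₜ l) := fun _ _ _ => rfl
  have n1 : ∀ j, Function.Injective (ν j) := fun j =>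
    (m1 j).comp (TensorProduct.comm (T'.R j) (L.K k j).V (K.K j i).V).injective
  have n3 : ∀ j w, w ∈ LinearMap.range (ν j) ↔ w ∈ WW g i j k ∧ dl g k w = 0 := by
    intro j w
    refine Iff.trans ⟨?_, ?_⟩ (m3 j w)
    · rintro ⟨x, rfl⟩
      exact ⟨_, rfl⟩
    · rintro ⟨x, rfl⟩
      obtain ⟨x, rfl⟩ := (TensorProduct.comm (T'.R j) (L.K k j).V (K.K j i).V).surjective x
      exact ⟨x, rfl⟩
  have e : ∀ j x, ν n (xr L K k j i x) = ν j x := by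
    intro j x
    induction x using TensorProduct.induction_on with
    | zero => rw [map_zero, map_zero, map_zero]
    | tmul l κ =>
      obtain ⟨ξ, h1, h2⟩ := m2 j κ l
      obtain ⟨ξ', h1', h2'⟩ := m2 n (K.r (tn j) (𝟙 i) κ) (L.r (𝟙 k) (tn j) l)
      rw [xr, tmap_tmul, n0, n0, h2, h2', cK, io_eq g (h1'.trans ((cL k j l).trans h1.symm))]
    | add x x' h h' => rw [map_add, map_add, map_add, h, h']
  refine snake0 i k _ (sup_comm' k i) (ν a) (ν b) (ν n) _ _ _ (n1 a) (n1 b) (n1 n) (n3 a) (n3 b)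
    (n3 n) (e a) (e b) fun z => ?_
  induction z using TensorProduct.induction_on with
  | zero => exact ⟨0, by simp, by simp⟩
  | tmul l κ =>
    obtain ⟨ζ, h1, h2⟩ := hp l κ
    obtain ⟨ξ, h3, h4⟩ := m2 n κ l
    refine ⟨ζ, ?_, by rw [tlift_tmul, h2]⟩
    rw [h1, n0, h4, map_mul, mm_io, h3, mm_tmul, map_one, map_one, mul_one, mul_comm]
  | add z z' h h' =>
    obtain ⟨ζ, h1, h2⟩ := h
    obtain ⟨ζ', h1', h2'⟩ := h'
    exact ⟨ζ + ζ', by simp only [map_add, h1, h1'], by simp only [map_add, h2, h2']⟩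

end

end Vale.Agent.P286ET6
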