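import Vale.Agent.P286ET.Spec

/-!
# Functions on the square with a simple pole along the diagonal
-/

namespace Vale.Agent.P286ET6

open CategoryTheory TensorProduct Vale.Agent.P286ET Ix

noncomputable section

/-- A localisation is flat. -/
theorem flat_away {A B : Type} [CommRing A] [CommRing B] [Algebra ℂ A] [Algebra ℂ B]
    {φ : A →ₐ[ℂ] B} {s : A} (h : IsAway φ s) :
    letI := φ.toRingHom.toAlgebra
    Module.Flat A B := by
  let _ := φ.toRingHom.toAlgebra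
  have : IsLocalization.Away s B := IsLocalization.Away.mk s h.unit
    (fun y => by
      obtain ⟨m, x, e⟩ := h.surj y
      exact ⟨m, x, by rw [mul_comm]; exact e⟩)
    (fun x x' e => by
      have e' : φ x = φ x' := e
      obtain ⟨m, hm⟩ := h.ker (x - x') (by rw [map_sub, e', sub_self])
      exact ⟨m, by rw [← sub_eq_zero, ← mul_sub]; exact hm⟩)
  exact IsLocalization.flat B (Submonoid.powers s)

/-- Membership in the tensor product of a subspace, in coordinates. -/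
theorem mem_rT {M Q R ι : Type} [AddCommGroup M] [Module ℂ M] [AddCommGroup Q] [Module ℂ Q]
    [AddCommGroup R] [Module ℂ R] [DecidableEq ι] (B : Module.Basis ι ℂ R) (f : M →ₗ[ℂ] Q)
    (w : Q ⊗[ℂ] R) : w ∈ LinearMap.range (f.rTensor R) ↔
      ∀ i, equivFinsuppOfBasisRight B w i ∈ LinearMap.range f := by
  constructor
  · rintro ⟨v, rfl⟩ i
    induction v using TensorProduct.induction_on with
    | zero => simp
    | tmul m r =>
      rw [LinearMap.rTensor_tmul, equivFinsuppOfBasisRight_apply_tmul_apply]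
      exact Submodule.smul_mem _ _ ⟨m, rfl⟩
    | add v v' hv hv' =>
      rw [map_add, map_add, Finsupp.add_apply]
      exact add_mem hv hv'
  · intro h
    rw [← (equivFinsuppOfBasisRight B).symm_apply_apply w, equivFinsuppOfBasisRight_symm_apply]
    refine Submodule.sum_mem _ fun i _ => ?_
    obtain ⟨m, hm⟩ := h i
    exact ⟨m ⊗ₜ B i, by rw [LinearMap.rTensor_tmul, hm]⟩

/-- The tensor product with a vector space commutes with intersections. -/
theorem rT_inter {M M' C Q : Type} (R : Type) [AddCommGroup M] [Module ℂ M] [AddCommGroup M']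
    [Module ℂ M'] [AddCommGroup C] [Module ℂ C] [AddCommGroup Q] [Module ℂ Q] [AddCommGroup R]
    [Module ℂ R] {f : M →ₗ[ℂ] Q} {f' : M' →ₗ[ℂ] Q} {c : C →ₗ[ℂ] Q}
    (h : ∀ q, q ∈ LinearMap.range f → q ∈ LinearMap.range f' → q ∈ LinearMap.range c)
    {w : Q ⊗[ℂ] R} (hw : w ∈ LinearMap.range (f.rTensor R))
    (hw' : w ∈ LinearMap.range (f'.rTensor R)) : w ∈ LinearMap.range (c.rTensor R) := by
  classical
  rw [mem_rT (Module.Basis.ofVectorSpace ℂ R)] at hw hw' ⊢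
  exact fun i => h _ (hw i) (hw' i)

variable {T T' : TDat Ix}

theorem tau_n (T : TDat Ix) (r : T.R n) : T.tau (tn n) r = r := by
  rw [hom_eq (tn n) (𝟙 n), T.tau_id]

theorem tau_tau (T : TDat Ix) {i j : Ix} (u : i ⟶ j) (r : T.R i) :
    T.tau (tn j) (T.tau u r) = T.tau (tn i) r := by
  rw [← T.tau_comp, hom_eq (u ≫ tn j) (tn i)]

variable (g : Mg T T')

/-- The trace in the second variable. -/
def trr : T.R n ⊗[ℂ] T'.R n →ₗ[ℂ] T.R n :=
  (TensorProduct.rid ℂ (T.R n)).toLinearMap ∘ₗ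
    LinearMap.lTensor _ (g.tr.tr ∘ₗ (g.κ.k n).symm.toLinearMap)

theorem trr_tmul (x : T.R n) (y : T'.R n) :
    trr g (x ⊗ₜ y) = g.tr.tr ((g.κ.k n).symm y) • x := rfl

theorem ks_tau {i j : Ix} (u : i ⟶ j) (y : T'.R i) :
    (g.κ.k j).symm (T'.tau u y) = T.tau u ((g.κ.k i).symm y) := by
  apply (g.κ.k j).injective
  rw [AlgEquiv.apply_symm_apply, g.κ.k_tau, AlgEquiv.apply_symm_apply]

include g in
theorem inj' (j : Ix) : Function.Injective (T'.tau (tn j)) := by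
  intro y y' e
  apply (g.κ.k j).symm.injective
  apply g.inj j
  rw [← ks_tau, ← ks_tau, e]

theorem emb_tmul (i j : Ix) (x : T.R i) (y : T'.R j) :
    g.S.emb i j (x ⊗ₜ y) = g.S.i1 (T.tau (tn i) x) * g.S.i2 (T'.tau (tn j) y) := rfl

theorem mul_tmul (i j : Ix) (x : T.R i) (y : T'.R j) :
    g.κ.mul i j (x ⊗ₜ y) = T.tau (tn i) x * (g.κ.k n).symm (T'.tau (tn j) y) := rfl

/-- The restriction of functions on a product of charts. -/
def rs {i i' j j' : Ix} (u : i ⟶ i') (v : j ⟶ j') :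
    T.R i ⊗[ℂ] T'.R j →ₐ[ℂ] T.R i' ⊗[ℂ] T'.R j' :=
  Algebra.TensorProduct.map (T.tau u) (T'.tau v)

theorem rs_tmul {i i' j j' : Ix} (u : i ⟶ i') (v : j ⟶ j') (x : T.R i) (y : T'.R j) :
    rs u v (x ⊗ₜ[ℂ] y) = T.tau u x ⊗ₜ[ℂ] T'.tau v y := rfl

theorem emb_rs {i i' j j' : Ix} (u : i ⟶ i') (v : j ⟶ j') (ξ : T.R i ⊗[ℂ] T'.R j) :
    g.S.emb i' j' (rs u v ξ) = g.S.emb i j ξ := by
  induction ξ using TensorProduct.induction_on with
  | zero => simp
  | tmul x y => rw [rs_tmul, emb_tmul, emb_tmul, tau_tau, tau_tau]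
  | add ξ ξ' h h' => rw [map_add, map_add, map_add, h, h']

theorem mul_rs {i i' j j' : Ix} (u : i ⟶ i') (v : j ⟶ j') (ξ : T.R i ⊗[ℂ] T'.R j) :
    g.κ.mul i' j' (rs u v ξ) = g.κ.mul i j ξ := by
  induction ξ using TensorProduct.induction_on with
  | zero => simp
  | tmul x y => rw [rs_tmul, mul_tmul, mul_tmul, tau_tau, tau_tau]
  | add ξ ξ' h h' => rw [map_add, map_add, map_add, h, h']

theorem emb_inj (i j : Ix) : Function.Injective (g.S.emb i j) := by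
  have h1 : Function.Injective
      (TensorProduct.map (T.tau (tn i)).toLinearMap (T'.tau (tn j)).toLinearMap) :=
    TensorProduct.map_injective_of_flat_flat _ _ (g.inj i) (inj' g j)
  have h2 : ∀ ξ, g.S.emb i j ξ = Algebra.TensorProduct.productMap g.S.i1 g.S.i2
      (TensorProduct.map (T.tau (tn i)).toLinearMap (T'.tau (tn j)).toLinearMap ξ) := by
    intro ξ
    induction ξ using TensorProduct.induction_on with
    | zero => simp
    | tmul x y => rfl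
    | add ξ ξ' h h' => rw [map_add, map_add, map_add, h, h']
  intro ξ ξ' e
  rw [h2, h2] at e
  exact h1 (g.S.inj e)

theorem mul_mem (i j : Ix) (ξ : T.R i ⊗[ℂ] T'.R j) :
    ∃ r : T.R (sup i j), g.κ.mul i j ξ = T.tau (tn _) r := by
  induction ξ using TensorProduct.induction_on with
  | zero => exact ⟨0, by simp⟩
  | tmul x y =>
    refine ⟨T.tau (sl i j) x * T.tau (sr i j) ((g.κ.k j).symm y), ?_⟩
    rw [mul_tmul, map_mul, tau_tau, tau_tau, ks_tau]
  | add ξ ξ' h h' =>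
    obtain ⟨r, hr⟩ := h
    obtain ⟨r', hr'⟩ := h'
    exact ⟨r + r', by rw [map_add, map_add, hr, hr']⟩

theorem mul_swap (i j : Ix) (ξ : T.R i ⊗[ℂ] T'.R j) :
    ∃ ξ' : T.R j ⊗[ℂ] T'.R i, g.κ.mul j i ξ' = g.κ.mul i j ξ := by
  induction ξ using TensorProduct.induction_on with
  | zero => exact ⟨0, by simp⟩
  | tmul x y =>
    refine ⟨(g.κ.k j).symm y ⊗ₜ g.κ.k i x, ?_⟩
    rw [mul_tmul, mul_tmul, ks_tau, ks_tau, AlgEquiv.symm_apply_apply, mul_comm]
  | add ξ ξ' h h' =>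
    obtain ⟨r, hr⟩ := h
    obtain ⟨r', hr'⟩ := h'
    exact ⟨r + r', by rw [map_add, map_add, hr, hr']⟩

theorem mul_left (i j : Ix) (x : T.R i) : g.κ.mul i j (x ⊗ₜ 1) = T.tau (tn i) x := by
  rw [mul_tmul, map_one, map_one, mul_one]

theorem mul_right (i j : Ix) (x : T.R j) : g.κ.mul i j (1 ⊗ₜ g.κ.k j x) = T.tau (tn j) x := by
  rw [mul_tmul, map_one, one_mul, ks_tau, AlgEquiv.symm_apply_apply]

theorem emb_left (i j : Ix) (x : T.R i) : g.S.emb i j (x ⊗ₜ 1) = g.S.i1 (T.tau (tn i) x) := by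
  rw [emb_tmul, map_one, map_one, mul_one]

theorem emb_right (i j : Ix) (y : T'.R j) : g.S.emb i j (1 ⊗ₜ y) = g.S.i2 (T'.tau (tn j) y) := by
  rw [emb_tmul, map_one, map_one, one_mul]

theorem mul_surj (i j : Ix) (r : T.R (sup i j)) :
    ∃ ξ : T.R i ⊗[ℂ] T'.R j, g.κ.mul i j ξ = T.tau (tn _) r := by
  cases i <;> cases j
  · exact ⟨_, mul_left g a a r⟩
  · exact g.gen _
  · exact ⟨_, mul_right g a n r⟩
  · obtain ⟨ξ, h⟩ := g.gen (T.tau (tn n) r)
    obtain ⟨ξ', h'⟩ := mul_swap g a b ξ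
    exact ⟨ξ', h'.trans h⟩
  · exact ⟨_, mul_left g b b r⟩
  · exact ⟨_, mul_right g b n r⟩
  · exact ⟨_, mul_left g n a r⟩
  · exact ⟨_, mul_left g n b r⟩
  · exact ⟨_, mul_left g n n r⟩

/-- The function with a simple pole. -/
abbrev Gf (i j : Ix) : g.S.Q := g.S.Gf g.κ g.G g.h i j

/-- `q` has a simple pole along the diagonal with residue `ρ`. -/
def Res (i j : Ix) (q : g.S.Q) (ρ : T.R n) : Prop :=
  ∃ α β : T.R i ⊗[ℂ] T'.R j, q = g.S.emb i j α + g.S.emb i j β * Gf g i j ∧ g.κ.mul i j β = ρ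

variable {g}

theorem Res.emb (i j : Ix) (α : T.R i ⊗[ℂ] T'.R j) : Res g i j (g.S.emb i j α) 0 :=
  ⟨α, 0, by simp, by simp⟩

theorem Res.gf (i j : Ix) : Res g i j (Gf g i j) 1 := ⟨0, 1, by simp, by simp⟩

theorem Res.add {i j : Ix} {q q' : g.S.Q} {ρ ρ' : T.R n} (h : Res g i j q ρ)
    (h' : Res g i j q' ρ') : Res g i j (q + q') (ρ + ρ') := by
  obtain ⟨α, β, rfl, rfl⟩ := h
  obtain ⟨α', β', rfl, rfl⟩ := h'
  exact ⟨α + α', β + β', by rw [map_add, map_add]; ring, map_add _ _ _⟩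

theorem Res.mul {i j : Ix} {q : g.S.Q} {ρ : T.R n} (h : Res g i j q ρ)
    (γ : T.R i ⊗[ℂ] T'.R j) : Res g i j (g.S.emb i j γ * q) (g.κ.mul i j γ * ρ) := by
  obtain ⟨α, β, rfl, rfl⟩ := h
  exact ⟨γ * α, γ * β, by rw [map_mul, map_mul]; ring, map_mul _ _ _⟩

theorem Res.neg {i j : Ix} {q : g.S.Q} {ρ : T.R n} (h : Res g i j q ρ) :
    Res g i j (-q) (-ρ) := by
  simpa using h.mul (-1)

theorem Res.sub {i j : Ix} {q q' : g.S.Q} {ρ ρ' : T.R n} (h : Res g i j q ρ)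
    (h' : Res g i j q' ρ') : Res g i j (q - q') (ρ - ρ') := by
  rw [sub_eq_add_neg, sub_eq_add_neg]
  exact h.add h'.neg

theorem Res.zero_iff {i j : Ix} {q : g.S.Q} : Res g i j q 0 ↔ ∃ α, g.S.emb i j α = q := by
  constructor
  · rintro ⟨α, β, rfl, h⟩
    obtain ⟨ζ, hζ, -⟩ := g.IG i j β h
    exact ⟨α + ζ, by rw [map_add, hζ]⟩
  · rintro ⟨α, rfl⟩
    exact Res.emb i j α

theorem h_sub {i i' : Ix} (u : i ⟶ i') : ∃ r : T.R i', T.tau (tn i') r = g.h i - g.h i' := by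
  rcases leOfHom u with rfl | rfl
  · exact ⟨0, by simp⟩
  · exact ⟨_, tau_n T _⟩

theorem gf_sub {i i' j j' : Ix} (u : i ⟶ i') (v : j ⟶ j') :
    ∃ α, Gf g i j = Gf g i' j' + g.S.emb i' j' α := by
  obtain ⟨r, hr⟩ := h_sub (g := g) u
  obtain ⟨r', hr'⟩ := h_sub (g := g) v
  refine ⟨1 ⊗ₜ g.κ.k j' r' - r ⊗ₜ 1, ?_⟩
  rw [map_sub, emb_left, emb_right, ← g.κ.k_tau, hr, hr', map_sub, map_sub, map_sub]
  simp only [Gf, Sq.Gf]
  ring

theorem Res.mono {i i' j j' : Ix} {q : g.S.Q} {ρ : T.R n} (h : Res g i j q ρ) (u : i ⟶ i')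
    (v : j ⟶ j') : Res g i' j' q ρ := by
  obtain ⟨α, β, rfl, rfl⟩ := h
  obtain ⟨γ, hγ⟩ := gf_sub (g := g) u v
  refine ⟨rs u v α + rs u v β * γ, rs u v β, ?_, mul_rs g u v β⟩
  rw [map_add, map_mul, emb_rs, emb_rs, hγ]
  ring

theorem Res.uniq {i j i' j' : Ix} {q : g.S.Q} {ρ ρ' : T.R n} (h : Res g i j q ρ)
    (h' : Res g i' j' q ρ') : ρ = ρ' := by
  obtain ⟨α, β, e, e'⟩ := (h.mono (tn i) (tn j)).sub (h'.mono (tn i') (tn j'))
  obtain ⟨ξ, ζ, h1, h2, h3⟩ := g.one n n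
  have h4 : ξ * α + β * ζ = 0 := by
    apply emb_inj g n n
    rw [map_add, map_mul, map_mul, h2, map_zero]
    rw [sub_self] at e
    linear_combination -g.S.emb n n ξ * e
  have h5 := congrArg (g.κ.mul n n) h4
  rw [map_add, map_mul, map_mul, h1, h3, e', map_zero] at h5
  linear_combination h5

/-- A function with residue `ρ` is `ρ G` up to a regular function. -/
theorem Res.split {i j : Ix} {q : g.S.Q} {r : T.R i} (h : Res g i j q (T.tau (tn i) r)) :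
    ∃ α, q = g.S.emb i j α + g.S.i1 (T.tau (tn i) r) * Gf g i j := by
  have h1 := h.sub ((Res.gf i j).mul (r ⊗ₜ 1))
  rw [mul_left, mul_one, sub_self, emb_left] at h1
  obtain ⟨α, hα⟩ := Res.zero_iff.1 h1
  exact ⟨α, by rw [hα]; ring⟩

theorem trr_rs {i j : Ix} (hj : ∀ r : T.R j, g.tr.tr (T.tau (tn j) r) = 0)
    (α : T.R i ⊗[ℂ] T'.R j) : trr g (rs (tn i) (tn j) α) = 0 := by
  induction α using TensorProduct.induction_on with
  | zero => simp
  | tmul x y => rw [rs_tmul, trr_tmul, ks_tau, hj, zero_smul]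
  | add ξ ξ' h h' => rw [map_add, map_add, h, h', add_zero]

/-- **The trace of a coboundary is the residue.** -/
theorem trr_res {i i' : Ix} {u v : g.S.Q} {ρ ρ' : T.R n} (hu : Res g i a u ρ)
    (hv : Res g i' b v ρ') {ζ : T.R n ⊗[ℂ] T'.R n} (e : g.S.emb n n ζ = u - v) :
    trr g ζ = -ρ := by
  have h1 : ρ' = ρ := by
    have h2 := ((hu.mono (tn i) (tn a)).sub (hv.mono (tn i') (tn b))).uniq
      (Res.zero_iff.2 ⟨ζ, e⟩)
    exact (sub_eq_zero.1 h2).symm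
  rw [h1] at hv
  rw [← tau_n T ρ] at hu hv
  obtain ⟨α, hα⟩ := (hu.mono (tn i) (𝟙 a)).split
  obtain ⟨β, hβ⟩ := (hv.mono (tn i') (𝟙 b)).split
  have h3 : ζ = rs (tn n) (tn a) α - rs (tn n) (tn b) β -
      ρ ⊗ₜ g.κ.k n (g.h b - g.h a) := by
    apply emb_inj g n n
    rw [map_sub, map_sub, emb_rs, emb_rs, emb_tmul, e, hα, hβ, tau_n T', map_sub, map_sub]
    simp only [Gf, Sq.Gf]
    ring
  rw [h3, map_sub, map_sub, trr_rs g.tr.tr_a, trr_rs g.tr.tr_b, trr_tmul,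
    AlgEquiv.symm_apply_apply, g.tr.tr_h]
  simp

/-- The product of a function with a simple pole and a function vanishing on the diagonal. -/
theorem Res.mul_ker {i k j : Ix} {q : g.S.Q} {ρ : T.R n} (h : Res g i j q ρ)
    {ξ : T.R k ⊗[ℂ] T'.R j} (hξ : g.κ.mul k j ξ = 0) :
    ∃ ζ, g.S.emb (sup i k) j ζ = q * g.S.emb k j ξ := by
  have h1 := (h.mono (sl i k) (𝟙 j)).mul (rs (sr i k) (𝟙 j) ξ)
  rw [mul_rs, hξ, zero_mul, emb_rs, mul_comm] at h1
  exact Res.zero_iff.1 h1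

end

end Vale.Agent.P286ET6
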