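import Vale.Agent.P286ET6.Kit

/-!
# The tensor product with the ideal of the diagonal
-/

namespace Vale.Agent.P286ET6

open CategoryTheory TensorProduct Vale.Agent.P286ET Ix
open Algebra.TensorProduct (productMap)

noncomputable section

section Gen

variable {A B R Q K L : Type} [CommRing A] [CommRing B] [CommRing R] [CommRing Q]
  [Algebra ℂ A] [Algebra ℂ B] [Algebra ℂ R] [Algebra ℂ Q]
  [AddCommGroup K] [Module ℂ K] [Module A K] [IsScalarTower ℂ A K] [AddCommGroup L] [Module A L]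

omit [Algebra ℂ A] [Algebra ℂ B] [Algebra ℂ Q] [Module ℂ K] [IsScalarTower ℂ A K] in
theorem loc_zero [Algebra A B] {s : A} (hu : IsUnit (algebraMap A B s))
    (hs : ∀ y : B, ∃ (m : ℕ) (x : A), algebraMap A B s ^ m * y = algebraMap A B x)
    (ν : K ⊗[A] B →+ Q) (j : A → Q) (h1 : ∀ (x : A) z, ν (x • z) = j x * ν z)
    (h2 : ∀ κ : K, ν (κ ⊗ₜ 1) = 0 → κ = 0) (z : K ⊗[A] B) (hz : ν z = 0) : z = 0 := by
  have h3 : ∀ z : K ⊗[A] B, ∃ (m : ℕ) (κ : K), s ^ m • z = κ ⊗ₜ 1 := by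
    intro z
    induction z using TensorProduct.induction_on with
    | zero => exact ⟨0, 0, by simp⟩
    | tmul κ y =>
      obtain ⟨m, x, e⟩ := hs y
      refine ⟨m, x • κ, ?_⟩
      rw [← tmul_smul, Algebra.smul_def, map_pow, e, smul_tmul, Algebra.smul_def, mul_one]
    | add z z' h h' =>
      obtain ⟨m, κ, e⟩ := h
      obtain ⟨m', κ', e'⟩ := h'
      refine ⟨m + m', s ^ m' • κ + s ^ m • κ', ?_⟩
      rw [add_tmul, ← smul_tmul', ← smul_tmul', ← e, ← e', smul_smul, smul_smul, ← pow_add,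
        ← pow_add, add_comm m' m, smul_add]
  obtain ⟨m, κ, e⟩ := h3 z
  have h4 : κ = 0 := h2 κ (by rw [← e, h1, hz, mul_zero])
  obtain ⟨u, hu'⟩ := (hu.pow m).exists_left_inv
  have h5 : ∀ z : K ⊗[A] B, LinearMap.lTensor K (LinearMap.mulLeft A u) (s ^ m • z) = z := by
    intro z
    induction z using TensorProduct.induction_on with
    | zero => simp
    | tmul κ y =>
      rw [← tmul_smul, LinearMap.lTensor_tmul, LinearMap.mulLeft_apply, Algebra.smul_def, map_pow,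
        ← mul_assoc, hu', one_mul]
    | add z z' h h' => rw [smul_add, map_add, h, h']
  rw [← h5 z, e, h4, zero_tmul, map_zero]

theorem exists_mu {φ : A →ₐ[ℂ] B} {s : A} (hs : IsAway φ s) (ψ : R →ₐ[ℂ] B)
    (hπ : Function.Surjective (productMap φ ψ)) (jq : B →ₐ[ℂ] Q) (e : K →ₗ[ℂ] Q)
    (he : Function.Injective e) (hsm : ∀ (x : A) κ, e (x • κ) = jq (φ x) * e κ)
    (lam : L →ₗ[A] A ⊗[ℂ] R) (hl : Function.Injective lam)
    (hr : ∀ ξ, productMap φ ψ ξ = 0 ↔ ξ ∈ Set.range lam) :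
    ∃ μ : K ⊗[A] L →ₗ[ℂ] Q ⊗[ℂ] R, Function.Injective μ ∧
      (∀ κ l, μ (κ ⊗ₜ l) = (e κ ⊗ₜ 1) *
        Algebra.TensorProduct.map (jq.comp φ) (AlgHom.id ℂ R) (lam l)) ∧
      ∀ w, w ∈ LinearMap.range μ ↔ w ∈ LinearMap.range (e.rTensor R) ∧
        productMap (AlgHom.id ℂ Q) (jq.comp ψ) w = 0 := by
  have hf := flat_away hs
  let _ := φ.toRingHom.toAlgebra
  have ham : ∀ x : A, algebraMap A B x = φ x := fun _ => rfl
  let π : A ⊗[ℂ] R →ₗ[A] B :=
    { toFun := productMap φ ψ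
      map_add' := map_add _
      map_smul' := fun x ξ => by
        induction ξ using TensorProduct.induction_on with
        | zero => simp
        | tmul y r =>
          rw [smul_tmul', RingHom.id_apply, Algebra.smul_def, Algebra.smul_def, ham,
            Algebra.TensorProduct.productMap_apply_tmul,
            Algebra.TensorProduct.productMap_apply_tmul, map_mul, mul_assoc]
          rfl
        | add ξ ξ' h h' => rw [smul_add, map_add, map_add, h, h', smul_add] }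
  have hex : Function.Exact lam π := hr
  let cb := AlgebraTensorModule.cancelBaseChange ℂ A A K R
  let ν : K ⊗[A] B →ₗ[ℂ] Q := tlift (LinearMap.mk₂ ℂ (fun κ y => e κ * jq y)
    (fun _ _ _ => by rw [map_add, add_mul]) (fun _ _ _ => by rw [map_smul, smul_mul_assoc])
    (fun _ _ _ => by rw [map_add, mul_add]) (fun _ _ _ => by rw [map_smul, mul_smul_comm]))
    (fun x κ y => by
      rw [LinearMap.mk₂_apply, LinearMap.mk₂_apply, hsm, Algebra.smul_def, ham, map_mul]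
      ring)
  have hν : ∀ κ y, ν (κ ⊗ₜ y) = e κ * jq y := fun κ y => tlift_tmul _ _ κ y
  have hν0 : ∀ z, ν z = 0 → z = 0 := by
    refine loc_zero (s := s) hs.unit hs.surj ν.toAddMonoidHom (fun x => jq (φ x)) (fun x z => ?_)
      fun κ h => he ?_
    · change ν _ = _ * ν z
      induction z using TensorProduct.induction_on with
      | zero => simp
      | tmul κ y => rw [smul_tmul', hν, hν, hsm, mul_assoc]
      | add z z' h h' => rw [smul_add, map_add, map_add, h, h', mul_add]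
    · have h' : ν (κ ⊗ₜ 1) = 0 := h
      rw [hν, map_one, mul_one] at h'
      rw [h', map_zero]
  have hc : ∀ κ ξ, e.rTensor R (cb (κ ⊗ₜ ξ)) = (e κ ⊗ₜ 1) *
      Algebra.TensorProduct.map (jq.comp φ) (AlgHom.id ℂ R) ξ := by
    intro κ ξ
    induction ξ using TensorProduct.induction_on with
    | zero => simp
    | tmul y r =>
      rw [AlgebraTensorModule.cancelBaseChange_tmul, LinearMap.rTensor_tmul, hsm,
        Algebra.TensorProduct.map_tmul, Algebra.TensorProduct.tmul_mul_tmul, one_mul, mul_comm]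
      rfl
    | add ξ ξ' h h' => rw [tmul_add, map_add, map_add, h, h', map_add, mul_add]
  have hd : ∀ v, productMap (AlgHom.id ℂ Q) (jq.comp ψ) (e.rTensor R (cb v)) =
      ν (π.lTensor K v) := by
    intro v
    induction v using TensorProduct.induction_on with
    | zero => simp
    | tmul κ ξ =>
      rw [LinearMap.lTensor_tmul, hν]
      induction ξ using TensorProduct.induction_on with
      | zero => simp
      | tmul y r =>
        rw [AlgebraTensorModule.cancelBaseChange_tmul, LinearMap.rTensor_tmul, hsm,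
          Algebra.TensorProduct.productMap_apply_tmul]
        change jq (φ y) * e κ * jq (ψ r) = e κ * jq (φ y * ψ r)
        rw [map_mul]
        ring
      | add ξ ξ' h h' => rw [tmul_add, map_add, map_add, map_add, h, h', map_add, map_add, mul_add]
    | add v v' h h' => rw [map_add, map_add, map_add, h, h', map_add, map_add]
  have hex' := lTensor_exact K hex hπ
  refine ⟨e.rTensor R ∘ₗ (cb.toLinearMap.restrictScalars ℂ) ∘ₗ
    ((lam.lTensor K).restrictScalars ℂ), ?_, fun κ l => hc κ (lam l), fun w => ⟨?_, ?_⟩⟩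
  · exact (Module.Flat.rTensor_preserves_injective_linearMap e he).comp (cb.injective.comp
      (LinearMap.lTensor_injective_of_exact_of_flat π hπ lam hl hex K))
  · rintro ⟨x, rfl⟩
    refine ⟨⟨_, rfl⟩, (hd (lam.lTensor K x)).trans ?_⟩
    rw [(hex' _).2 ⟨x, rfl⟩, map_zero]
  · rintro ⟨⟨v, rfl⟩, h⟩
    obtain ⟨v, rfl⟩ := cb.surjective v
    obtain ⟨x, rfl⟩ := (hex' v).1 (hν0 _ ((hd v).symm.trans h))
    exact ⟨x, rfl⟩

end Gen

variable {T T' : TDat Ix} (g : Mg T T')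

/-- The restriction to the diagonal of the first and the third variable. -/
def mm (k : Ix) : g.S.Q ⊗[ℂ] T.R k →ₐ[ℂ] g.S.Q :=
  productMap (AlgHom.id ℂ _) (g.S.i1.comp (T.tau (tn k)))

/-- The restriction to the diagonal of the second and the third variable. -/
def dl (k : Ix) : g.S.Q ⊗[ℂ] T.R k →ₐ[ℂ] g.S.Q :=
  productMap (AlgHom.id ℂ _) ((g.S.i2.comp (g.κ.k n : T.R n →ₐ[ℂ] T'.R n)).comp (T.tau (tn k)))

theorem mm_tmul (k : Ix) (q : g.S.Q) (r : T.R k) :
    mm g k (q ⊗ₜ r) = q * g.S.i1 (T.tau (tn k) r) := rfl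

theorem dl_tmul (k : Ix) (q : g.S.Q) (r : T.R k) :
    dl g k (q ⊗ₜ r) = q * g.S.i2 (g.κ.k n (T.tau (tn k) r)) := rfl

/-- The functions with a simple pole. -/
def KS (i j : Ix) : Submodule ℂ g.S.Q where
  carrier := {q | ∃ ρ, Res g i j q ρ}
  add_mem' := fun ⟨_, h⟩ ⟨_, h'⟩ => ⟨_, h.add h'⟩
  zero_mem' := ⟨0, Res.zero_iff.2 ⟨0, map_zero _⟩⟩
  smul_mem' := fun c q ⟨_, h⟩ => ⟨_, by
    have h1 := h.mul (algebraMap ℂ _ c)
    rwa [AlgHom.commutes, ← Algebra.smul_def] at h1⟩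

/-- The same with a third variable. -/
def WW (i j k : Ix) : Submodule ℂ (g.S.Q ⊗[ℂ] T.R k) :=
  LinearMap.range ((KS g i j).subtype.rTensor (T.R k))

/-- Functions of the second and the third variable. -/
def io (j k : Ix) : T'.R j ⊗[ℂ] T.R k →ₐ[ℂ] g.S.Q ⊗[ℂ] T.R k :=
  Algebra.TensorProduct.map (g.S.i2.comp (T'.tau (tn j))) (AlgHom.id ℂ _)

/-- The embedding with the factors exchanged. -/
def em (j k : Ix) (ξ : T'.R j ⊗[ℂ] T.R k) : g.S.Q :=
  g.S.emb k j (Algebra.TensorProduct.comm ℂ _ _ ξ)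

theorem em_inj (j k : Ix) : Function.Injective (em g j k) :=
  (emb_inj g k j).comp (Algebra.TensorProduct.comm ℂ _ _).injective

theorem em_tmul (j k : Ix) (y : T'.R j) (r : T.R k) :
    em g j k (y ⊗ₜ r) = g.S.i1 (T.tau (tn k) r) * g.S.i2 (T'.tau (tn j) y) := rfl

theorem em_add (j k : Ix) (ξ ξ' : T'.R j ⊗[ℂ] T.R k) :
    em g j k (ξ + ξ') = em g j k ξ + em g j k ξ' := by
  rw [em, map_add, map_add]
  rfl

theorem em_zero (j k : Ix) : em g j k 0 = 0 := by rw [em, map_zero, map_zero]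

theorem mm_io (j k : Ix) (ξ : T'.R j ⊗[ℂ] T.R k) : mm g k (io g j k ξ) = em g j k ξ := by
  induction ξ using TensorProduct.induction_on with
  | zero => rw [map_zero, map_zero, em_zero]
  | tmul y r => exact mul_comm _ _
  | add ξ ξ' h h' => rw [map_add, map_add, em_add, h, h']

theorem em_smul (j k : Ix) (x : T'.R j) (ξ : T'.R j ⊗[ℂ] T.R k) :
    em g j k (x • ξ) = g.S.i2 (T'.tau (tn j) x) * em g j k ξ := by
  induction ξ using TensorProduct.induction_on with
  | zero => rw [smul_zero, em_zero, mul_zero]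
  | tmul y r =>
    rw [smul_tmul', em_tmul, em_tmul, smul_eq_mul, map_mul, map_mul]
    ring
  | add ξ ξ' h h' => rw [smul_add, em_add, em_add, h, h', mul_add]

theorem io_eq {j k : Ix} {ξ : T'.R j ⊗[ℂ] T.R k} {ξ' : T'.R n ⊗[ℂ] T.R k}
    (h : em g n k ξ' = em g j k ξ) : io g n k ξ' = io g j k ξ := by
  have h1 : ∀ ξ : T'.R j ⊗[ℂ] T.R k, io g n k (Algebra.TensorProduct.map (T'.tau (tn j))
      (AlgHom.id ℂ _) ξ) = io g j k ξ := by
    intro ξ
    induction ξ using TensorProduct.induction_on with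
    | zero => simp
    | tmul y r =>
      change g.S.i2 (T'.tau (tn n) (T'.tau (tn j) y)) ⊗ₜ r = g.S.i2 (T'.tau (tn j) y) ⊗ₜ r
      rw [tau_n]
    | add ξ ξ' h h' => rw [map_add, map_add, map_add, h, h']
  rw [← h1 ξ]
  congr 1
  apply em_inj g n k
  rw [h, ← mm_io, ← mm_io, h1]

/-- The restriction to the diagonal as a map to the intersection of the charts. -/
def pj (j k : Ix) : T'.R j ⊗[ℂ] T.R k →ₐ[ℂ] T'.R (sup k j) :=
  productMap (T'.tau (sr k j)) ((T'.tau (sl k j)).comp (g.κ.k k : T.R k →ₐ[ℂ] T'.R k))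

theorem tau_pj (j k : Ix) (ξ : T'.R j ⊗[ℂ] T.R k) : T'.tau (tn _) (pj g j k ξ) =
    g.κ.k n (g.κ.mul k j (Algebra.TensorProduct.comm ℂ _ _ ξ)) := by
  induction ξ using TensorProduct.induction_on with
  | zero => simp
  | tmul y r =>
    change T'.tau _ (T'.tau _ y * T'.tau _ (g.κ.k k r)) = g.κ.k n (g.κ.mul k j (r ⊗ₜ y))
    rw [mul_tmul, map_mul, map_mul, tau_tau, tau_tau, AlgEquiv.apply_symm_apply, g.κ.k_tau,
      mul_comm]
  | add ξ ξ' h h' => simp only [map_add, h, h']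

theorem pj_surj (j k : Ix) : Function.Surjective (pj g j k) := by
  intro y
  obtain ⟨ξ, h⟩ := mul_surj g k j ((g.κ.k _).symm y)
  refine ⟨(Algebra.TensorProduct.comm ℂ _ _).symm ξ, inj' g _ ?_⟩
  rw [tau_pj, AlgEquiv.apply_symm_apply, h, g.κ.k_tau, AlgEquiv.apply_symm_apply]

theorem pj_zero {j k : Ix} {ξ : T'.R j ⊗[ℂ] T.R k} :
    pj g j k ξ = 0 ↔ g.κ.mul k j (Algebra.TensorProduct.comm ℂ _ _ ξ) = 0 := by
  rw [← map_eq_zero_iff _ (inj' g (sup k j)), tau_pj, map_eq_zero_iff _ (g.κ.k n).injective]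

/-- **The composition of the kernels on one chart.** -/
theorem exists_mu' (i j k : Ix) {K L : Type} [AddCommGroup K] [Module ℂ K] [Module (T'.R j) K]
    [IsScalarTower ℂ (T'.R j) K] [AddCommGroup L] [Module ℂ L] [Module (T'.R j) L]
    (eK : K →ₗ[ℂ] g.S.Q) (eL : L →ₗ[ℂ] g.S.Q) (iK : Function.Injective eK)
    (iL : Function.Injective eL)
    (sK : ∀ (y : T'.R j) κ, eK (y • κ) = g.S.i2 (T'.tau (tn j) y) * eK κ)
    (sL : ∀ (y : T'.R j) l, eL (y • l) = g.S.i2 (T'.tau (tn j) y) * eL l)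
    (rK : ∀ q, (∃ κ, eK κ = q) ↔ ∃ α β, q = g.S.emb i j α + g.S.emb i j β * Gf g i j)
    (rL : ∀ q, (∃ l, eL l = q) ↔ ∃ ξ, g.κ.mul k j ξ = 0 ∧ g.S.emb k j ξ = q) :
    ∃ μ : K ⊗[T'.R j] L →ₗ[ℂ] g.S.Q ⊗[ℂ] T.R k, Function.Injective μ ∧
      (∀ κ l, ∃ ξ, em g j k ξ = eL l ∧ μ (κ ⊗ₜ l) = (eK κ ⊗ₜ 1) * io g j k ξ) ∧
      ∀ w, w ∈ LinearMap.range μ ↔ w ∈ WW g i j k ∧ dl g k w = 0 := by
  have h1 : ∀ l, ∃ ξ, pj g j k ξ = 0 ∧ em g j k ξ = eL l := by
    intro l
    obtain ⟨ξ, h, h'⟩ := (rL _).1 ⟨l, rfl⟩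
    refine ⟨(Algebra.TensorProduct.comm ℂ _ _).symm ξ, (pj_zero g).2 ?_, ?_⟩
    · rwa [AlgEquiv.apply_symm_apply]
    · rwa [em, AlgEquiv.apply_symm_apply]
  choose f hf hf' using h1
  let lam : L →ₗ[T'.R j] T'.R j ⊗[ℂ] T.R k :=
    { toFun := f
      map_add' := fun l l' => em_inj g j k (by rw [em_add, hf', hf', hf', map_add])
      map_smul' := fun x l => em_inj g j k (by rw [RingHom.id_apply, em_smul, hf', hf', sL]) }
  have hl : Function.Injective lam := fun l l' e => iL (by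
    rw [← hf', ← hf']
    exact congrArg _ e)
  have hr : ∀ ξ, pj g j k ξ = 0 ↔ ξ ∈ Set.range lam := by
    intro ξ
    constructor
    · intro h
      obtain ⟨l, hl⟩ := (rL _).2 ⟨_, (pj_zero g).1 h, rfl⟩
      exact ⟨l, em_inj g j k ((hf' l).trans hl)⟩
    · rintro ⟨l, rfl⟩
      exact hf l
  obtain ⟨μ, m1, m2, m3⟩ := exists_mu (T'.away (sr k j)) _ (pj_surj g j k)
    (g.S.i2.comp (T'.tau (tn (sup k j)))) eK iK (fun x κ => by
      rw [sK, AlgHom.comp_apply, tau_tau]) lam hl hr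
  have e1 : (g.S.i2.comp (T'.tau (tn (sup k j)))).comp (T'.tau (sr k j)) =
      g.S.i2.comp (T'.tau (tn j)) := AlgHom.ext fun x => congrArg g.S.i2 (tau_tau T' _ x)
  have e2 : (g.S.i2.comp (T'.tau (tn (sup k j)))).comp
      ((T'.tau (sl k j)).comp (g.κ.k k : T.R k →ₐ[ℂ] T'.R k)) =
      (g.S.i2.comp (g.κ.k n : T.R n →ₐ[ℂ] T'.R n)).comp (T.tau (tn k)) :=
    AlgHom.ext fun x => congrArg g.S.i2 ((tau_tau T' _ _).trans (g.κ.k_tau _ x).symm)
  have e3 : LinearMap.range eK = KS g i j := by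
    ext q
    refine (rK q).trans ⟨?_, ?_⟩
    · rintro ⟨α, β, h⟩
      exact ⟨_, α, β, h, rfl⟩
    · rintro ⟨_, α, β, h, -⟩
      exact ⟨α, β, h⟩
  refine ⟨μ, m1, fun κ l => ⟨f l, hf' l, ?_⟩, fun w => ?_⟩
  · rw [m2, e1]
    rfl
  · rw [m3, e2, LinearMap.rTensor_range, e3]
    rfl

end

end Vale.Agent.P286ET6
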