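import Vale.Agent.P286ET6.Mu

/-!
# The composition of the kernels is the diagonal
-/

namespace Vale.Agent.P286ET6

open CategoryTheory TensorProduct Vale.Agent.P286ET Ix

noncomputable section

variable {T T' : TDat Ix} {g : Mg T T'}

theorem tmul_mem {i j k : Ix} {q : g.S.Q} {ρ : T.R n} (h : Res g i j q ρ) (r : T.R k) :
    q ⊗ₜ r ∈ WW g i j k := ⟨(⟨q, ρ, h⟩ : KS g i j) ⊗ₜ r, rfl⟩

theorem WW_ind {i j k : Ix} {P : g.S.Q ⊗[ℂ] T.R k → Prop} (h0 : P 0)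
    (h1 : ∀ q ρ r, Res g i j q ρ → P (q ⊗ₜ r)) (h2 : ∀ w w', P w → P w' → P (w + w'))
    {w : g.S.Q ⊗[ℂ] T.R k} (hw : w ∈ WW g i j k) : P w := by
  obtain ⟨v, rfl⟩ := hw
  induction v using TensorProduct.induction_on with
  | zero => rwa [map_zero]
  | tmul q r =>
    obtain ⟨ρ, h⟩ := q.2
    exact h1 _ ρ r h
  | add v v' h h' =>
    rw [map_add]
    exact h2 _ _ h h'

theorem res_md {i j k : Ix} {w : g.S.Q ⊗[ℂ] T.R k} (hw : w ∈ WW g i j k) :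
    ∃ ρ, Res g n j (mm g k w) ρ ∧ Res g i (sup k j) (dl g k w) ρ := by
  refine WW_ind (P := fun w => ∃ ρ, Res g n j (mm g k w) ρ ∧ Res g i (sup k j) (dl g k w) ρ)
    ⟨0, Res.zero_iff.2 ⟨0, by simp⟩, Res.zero_iff.2 ⟨0, by simp⟩⟩ (fun q ρ r h => ?_) ?_ hw
  · refine ⟨T.tau (tn k) r * ρ, ?_, ?_⟩
    · have h1 := (h.mono (tn i) (𝟙 j)).mul (T.tau (tn k) r ⊗ₜ 1)
      rwa [emb_left, mul_left, tau_n, mul_comm _ q] at h1
    · have h1 := (h.mono (𝟙 i) (sr k j)).mul (1 ⊗ₜ g.κ.k _ (T.tau (sl k j) r))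
      rwa [emb_right, mul_right, ← g.κ.k_tau, tau_tau, mul_comm _ q] at h1
  · rintro w w' ⟨ρ, h1, h2⟩ ⟨ρ', h1', h2'⟩
    rw [map_add, map_add]
    exact ⟨_, h1.add h1', h2.add h2'⟩

theorem dl_mul {i j k : Ix} (γ : T.R i ⊗[ℂ] T'.R (sup k j)) {q : g.S.Q} {ρ : T.R n}
    (h : Res g i j q ρ) : ∃ w ∈ WW g i j k, dl g k w = g.S.emb i _ γ * q := by
  induction γ using TensorProduct.induction_on with
  | zero => exact ⟨0, zero_mem _, by simp⟩
  | tmul x y =>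
    obtain ⟨ξ, rfl⟩ := pj_surj g j k y
    induction ξ using TensorProduct.induction_on with
    | zero => exact ⟨0, zero_mem _, by simp⟩
    | tmul y r =>
      refine ⟨_, tmul_mem (h.mul (x ⊗ₜ y)) r, ?_⟩
      rw [dl_tmul, emb_tmul, emb_tmul, tau_pj]
      change _ = _ * g.S.i2 (g.κ.k n (g.κ.mul k j (r ⊗ₜ y))) * q
      rw [mul_tmul, map_mul, map_mul, AlgEquiv.apply_symm_apply]
      ring
    | add ξ ξ' h1 h2 =>
      obtain ⟨w, hw, e⟩ := h1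
      obtain ⟨w', hw', e'⟩ := h2
      exact ⟨w + w', add_mem hw hw', by rw [map_add, e, e', map_add, tmul_add, map_add, add_mul]⟩
  | add γ γ' h1 h2 =>
    obtain ⟨w, hw, e⟩ := h1
    obtain ⟨w', hw', e'⟩ := h2
    exact ⟨w + w', add_mem hw hw', by rw [map_add, e, e', map_add, add_mul]⟩

theorem dl_surj {i k : Ix} (j : Ix) {q : g.S.Q} {ρ : T.R n} (h : Res g i k q ρ) :
    ∃ w ∈ WW g i j k, dl g k w = q := by
  obtain ⟨α, β, rfl, -⟩ := h.mono (𝟙 i) (sl k j)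
  obtain ⟨γ, hγ⟩ := gf_sub (g := g) (𝟙 i) (sr k j)
  obtain ⟨w, hw, e⟩ := dl_mul (k := k) (α - β * γ) (Res.emb (g := g) i j 1)
  obtain ⟨w', hw', e'⟩ := dl_mul (k := k) β (Res.gf (g := g) i j)
  refine ⟨w + w', add_mem hw hw', ?_⟩
  rw [map_add, e, e', hγ, map_sub, map_mul, map_one]
  ring

theorem cech_O (i : Ix) (α : T.R i ⊗[ℂ] T'.R n) :
    ∃ u ∈ KS g i a, ∃ v ∈ KS g i b, g.S.emb i n α = u - v := by
  induction α using TensorProduct.induction_on with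
  | zero => exact ⟨0, zero_mem _, 0, zero_mem _, by simp⟩
  | tmul x y =>
    obtain ⟨y, rfl⟩ := (g.κ.k n).surjective y
    obtain ⟨ya, yb, e⟩ := g.tr.tr_ker (y - g.tr.tr y • (g.h b - g.h a)) (by
      rw [map_sub, map_smul, g.tr.tr_h, smul_eq_mul, mul_one, sub_self])
    refine ⟨_, ⟨_, (Res.emb i a (x ⊗ₜ g.κ.k a ya)).sub
        ((Res.gf i a).mul ((g.tr.tr y • x) ⊗ₜ 1))⟩, _,
      ⟨_, (Res.emb i b (x ⊗ₜ g.κ.k b yb)).sub ((Res.gf i b).mul ((g.tr.tr y • x) ⊗ₜ 1))⟩, ?_⟩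
    have e' := congrArg (fun r => g.S.i2 (g.κ.k n r)) e
    simp only [map_sub, Algebra.smul_def, map_mul, AlgHom.commutes,
      AlgEquiv.commutes] at e'
    rw [emb_left, emb_left, emb_tmul, emb_tmul, emb_tmul, tau_n, ← g.κ.k_tau, ← g.κ.k_tau,
      Algebra.smul_def, map_mul, map_mul, AlgHom.commutes, AlgHom.commutes]
    simp only [Gf, Sq.Gf]
    linear_combination g.S.i1 (T.tau (tn i) x) * e'
  | add α α' h h' =>
    obtain ⟨u, hu, v, hv, e⟩ := h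
    obtain ⟨u', hu', v', hv', e'⟩ := h'
    exact ⟨u + u', add_mem hu hu', v + v', add_mem hv hv', by rw [map_add, e, e']; ring⟩

theorem exists_res (i : Ix) (ρ : T.R n) :
    ∃ u ∈ KS g i a, ∃ v ∈ KS g i b, Res g i n (u - v) ρ := by
  have key : ∀ j, sup i j = n → ∃ u, Res g i j u ρ := by
    intro j hj
    have h1 : ∀ s : Ix, s = n → ∃ r : T.R s, T.tau (tn s) r = ρ := by
      rintro s rfl
      exact ⟨ρ, tau_n T ρ⟩
    obtain ⟨r, hr⟩ := h1 _ hj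
    obtain ⟨β, hβ⟩ := mul_surj g i j r
    exact ⟨_, 0, β, rfl, hβ.trans hr⟩
  by_cases hi : i = a
  · obtain ⟨u, hu⟩ := key b (by rw [hi]; rfl)
    refine ⟨0, zero_mem _, -u, neg_mem ⟨_, hu⟩, ?_⟩
    rw [zero_sub, neg_neg]
    exact hu.mono (𝟙 i) (tn b)
  · obtain ⟨u, hu⟩ := key a (by cases i <;> first | rfl | exact absurd rfl hi)
    refine ⟨u, ⟨_, hu⟩, 0, zero_mem _, ?_⟩
    rw [sub_zero]
    exact hu.mono (𝟙 i) (tn a)

theorem cech_K {i : Ix} {q : g.S.Q} {ρ : T.R n} (h : Res g i n q ρ) :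
    ∃ u ∈ KS g i a, ∃ v ∈ KS g i b, q = u - v := by
  obtain ⟨u, hu, v, hv, h1⟩ := exists_res (g := g) i ρ
  have h2 := h.sub h1
  rw [sub_self] at h2
  obtain ⟨α, hα⟩ := Res.zero_iff.1 h2
  obtain ⟨u', hu', v', hv', e⟩ := cech_O (g := g) i α
  exact ⟨u + u', add_mem hu hu', v + v', add_mem hv hv', by linear_combination e - hα⟩

theorem cech_W {i k : Ix} {w : g.S.Q ⊗[ℂ] T.R k} (hw : w ∈ WW g i n k) :
    ∃ u ∈ WW g i a k, ∃ v ∈ WW g i b k, w = u - v := by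
  refine WW_ind (P := fun w => ∃ u ∈ WW g i a k, ∃ v ∈ WW g i b k, w = u - v)
    ⟨0, zero_mem _, 0, zero_mem _, by simp⟩ (fun q ρ r h => ?_) ?_ hw
  · obtain ⟨u, ⟨_, hu⟩, v, ⟨_, hv⟩, rfl⟩ := cech_K h
    exact ⟨_, tmul_mem hu r, _, tmul_mem hv r, sub_tmul _ _ _⟩
  · rintro w w' ⟨u, hu, v, hv, rfl⟩ ⟨u', hu', v', hv', rfl⟩
    exact ⟨u + u', add_mem hu hu', v + v', add_mem hv hv', by abel⟩

/-- Functions of the first variable. -/
def cc (g : Mg T T') (i : Ix) : T.R i →ₗ[ℂ] g.S.Q := (g.S.i1.comp (T.tau (tn i))).toLinearMap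

theorem inter_O {i : Ix} {α : T.R i ⊗[ℂ] T'.R a} {β : T.R i ⊗[ℂ] T'.R b}
    (e : g.S.emb i a α = g.S.emb i b β) : ∃ r, cc g i r = g.S.emb i a α := by
  have h1 : ∀ (j : Ix) (α : T.R i ⊗[ℂ] T'.R j), ∃ v, g.S.emb i j α = em g n i
      ((T'.tau (tn j)).toLinearMap.rTensor _ v) := by
    intro j α
    refine ⟨TensorProduct.comm ℂ _ _ α, ?_⟩
    induction α using TensorProduct.induction_on with
    | zero => rw [map_zero, map_zero, map_zero, em_zero]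
    | tmul x y =>
      rw [comm_tmul, LinearMap.rTensor_tmul, em_tmul, tau_n]
      rfl
    | add α α' h h' => rw [map_add, map_add, map_add, em_add, h, h']
  obtain ⟨v, hv⟩ := h1 a α
  obtain ⟨v', hv'⟩ := h1 b β
  have h2 := em_inj g n i (hv.symm.trans (e.trans hv'))
  obtain ⟨z, hz⟩ := rT_inter (T.R i) (c := Algebra.linearMap ℂ (T'.R n)) (by
    rintro _ ⟨x, rfl⟩ ⟨y, hy⟩
    obtain ⟨c, hc⟩ := g.tr.h0 ((g.κ.k a).symm x) ((g.κ.k b).symm y) (by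
      rw [← ks_tau, ← ks_tau]
      exact congrArg _ hy.symm)
    refine ⟨c, ?_⟩
    have h3 : x = algebraMap ℂ _ c := by
      rw [← (g.κ.k a).apply_symm_apply x, hc, AlgEquiv.commutes]
    rw [h3]
    exact ((T'.tau (tn a)).commutes c).symm) ⟨v, rfl⟩ ⟨v', h2.symm⟩
  refine ⟨TensorProduct.lid ℂ _ z, ?_⟩
  rw [hv, ← hz]
  clear hz
  induction z using TensorProduct.induction_on with
  | zero => rw [map_zero, map_zero, map_zero, em_zero]
  | tmul c r =>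
    rw [lid_tmul, map_smul, LinearMap.rTensor_tmul, em_tmul, Algebra.linearMap_apply,
      AlgHom.commutes, AlgHom.commutes, Algebra.smul_def, mul_comm]
    rfl
  | add z z' h h' => rw [map_add, map_add, map_add, em_add, h, h']

theorem inter_K {i : Ix} {q : g.S.Q} (ha : q ∈ KS g i a) (hb : q ∈ KS g i b) :
    ∃ r, cc g i r = q := by
  obtain ⟨ρ, ha⟩ := ha
  obtain ⟨ρ', hb⟩ := hb
  have h1 := trr_res ha hb (ζ := 0) (by rw [map_zero, sub_self])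
  rw [map_zero, eq_comm, neg_eq_zero] at h1
  have h2 : ρ' = 0 := (hb.uniq ha).trans h1
  rw [h1] at ha
  rw [h2] at hb
  obtain ⟨α, rfl⟩ := Res.zero_iff.1 ha
  obtain ⟨β, hβ⟩ := Res.zero_iff.1 hb
  exact inter_O hβ.symm

theorem inter_W {i k : Ix} {w : g.S.Q ⊗[ℂ] T.R k} (ha : w ∈ WW g i a k) (hb : w ∈ WW g i b k) :
    ∃ η, (cc g i).rTensor _ η = w :=
  rT_inter (T.R k) (c := cc g i) (fun q h h' => inter_K
    (by rwa [Submodule.range_subtype] at h) (by rwa [Submodule.range_subtype] at h')) ha hb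

theorem cc_mem (i j k : Ix) (η : T.R i ⊗[ℂ] T.R k) : (cc g i).rTensor _ η ∈ WW g i j k := by
  induction η using TensorProduct.induction_on with
  | zero => rw [map_zero]; exact zero_mem _
  | tmul x r =>
    have h := Res.emb (g := g) i j (x ⊗ₜ 1)
    rw [emb_left] at h
    exact tmul_mem h r
  | add η η' h h' => rw [map_add]; exact add_mem h h'

theorem dl_cc (i k : Ix) (η : T.R i ⊗[ℂ] T.R k) : dl g k ((cc g i).rTensor _ η) =
    g.S.emb i k (Algebra.TensorProduct.congr (AlgEquiv.refl : T.R i ≃ₐ[ℂ] T.R i)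
      (g.κ.k k) η) := by
  induction η using TensorProduct.induction_on with
  | zero => simp
  | tmul x r =>
    rw [LinearMap.rTensor_tmul, dl_tmul, g.κ.k_tau]
    rfl
  | add η η' h h' => simp only [map_add, h, h']

theorem res_both {i k : Ix} {q : g.S.Q} {ρ ρ' : T.R n} (ha : Res g i (sup k a) q ρ)
    (hb : Res g i (sup k b) q ρ') : Res g i k q ρ := by
  cases k
  · exact ha
  · rw [ha.uniq hb]
    exact hb
  · exact ha

/-- **The snake.** -/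
theorem snake0 (i k s : Ix) (hs : s = sup i k) {Xa Xb Xn : Type} [AddCommGroup Xa] [Module ℂ Xa]
    [AddCommGroup Xb] [Module ℂ Xb] [AddCommGroup Xn] [Module ℂ Xn]
    (μa : Xa →ₗ[ℂ] g.S.Q ⊗[ℂ] T.R k) (μb : Xb →ₗ[ℂ] g.S.Q ⊗[ℂ] T.R k)
    (μn : Xn →ₗ[ℂ] g.S.Q ⊗[ℂ] T.R k) (ra : Xa →ₗ[ℂ] Xn) (rb : Xb →ₗ[ℂ] Xn)
    (P : Xn →ₗ[ℂ] T.R s) (ia : Function.Injective μa) (ib : Function.Injective μb)
    (im : Function.Injective μn)
    (ha : ∀ w, w ∈ LinearMap.range μa ↔ w ∈ WW g i a k ∧ dl g k w = 0)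
    (hb : ∀ w, w ∈ LinearMap.range μb ↔ w ∈ WW g i b k ∧ dl g k w = 0)
    (hn : ∀ w, w ∈ LinearMap.range μn ↔ w ∈ WW g i n k ∧ dl g k w = 0)
    (ea : ∀ x, μn (ra x) = μa x) (eb : ∀ y, μn (rb y) = μb y)
    (hP : ∀ z, ∃ ζ, g.S.emb n n ζ = mm g k (μn z) ∧ T.tau (tn s) (P z) = trr g ζ) :
    (∀ x y, ra x = rb y → x = 0 ∧ y = 0) ∧ (∀ z, P z = 0 → ∃ x y, z = ra x - rb y) ∧
      Function.Surjective P := by
  subst hs
  have key : ∀ z u v, u ∈ WW g i a k → v ∈ WW g i b k → μn z = u - v →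
      Res g i k (dl g k u) (-T.tau (tn _) (P z)) ∧ dl g k v = dl g k u := by
    intro z u v hu hv e
    have h0 : dl g k v = dl g k u := by
      have h1 := ((hn _).1 ⟨z, rfl⟩).2
      rw [e, map_sub, sub_eq_zero] at h1
      exact h1.symm
    obtain ⟨ρ, a1, a2⟩ := res_md hu
    obtain ⟨ρ', b1, b2⟩ := res_md hv
    obtain ⟨ζ, h1, h2⟩ := hP z
    rw [e, map_sub] at h1
    rw [h0] at b2
    rw [h2, trr_res a1 b1 h1, neg_neg]
    exact ⟨res_both a2 b2, h0⟩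
  refine ⟨fun x y e => ?_, fun z hz => ?_, fun r => ?_⟩
  · have h1 : μa x = μb y := by rw [← ea, e, eb]
    have h2 := (ha _).1 ⟨x, rfl⟩
    obtain ⟨η, hη⟩ := inter_W h2.1 (h1 ▸ ((hb _).1 ⟨y, rfl⟩).1)
    have h3 := h2.2
    rw [← hη, dl_cc, map_eq_zero_iff _ (emb_inj g i k),
      map_eq_zero_iff _ (AlgEquiv.injective _)] at h3
    rw [h3, map_zero] at hη
    exact ⟨ia (by rw [← hη, map_zero]), ib (by rw [← h1, ← hη, map_zero])⟩
  · obtain ⟨u, hu, v, hv, e⟩ := cech_W ((hn _).1 ⟨z, rfl⟩).1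
    obtain ⟨h1, h2⟩ := key z u v hu hv e
    rw [hz, map_zero, neg_zero] at h1
    obtain ⟨α, hα⟩ := Res.zero_iff.1 h1
    obtain ⟨η, rfl⟩ := (Algebra.TensorProduct.congr
      (AlgEquiv.refl : T.R i ≃ₐ[ℂ] T.R i) (g.κ.k k)).surjective α
    rw [← dl_cc] at hα
    obtain ⟨x, hx⟩ := (ha (u - (cc g i).rTensor _ η)).2
      ⟨sub_mem hu (cc_mem i a k η), by rw [map_sub, hα, sub_self]⟩
    obtain ⟨y, hy⟩ := (hb (v - (cc g i).rTensor _ η)).2
      ⟨sub_mem hv (cc_mem i b k η), by rw [map_sub, hα, h2, sub_self]⟩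
    refine ⟨x, y, im ?_⟩
    rw [map_sub, ea, eb, hx, hy, e]
    abel
  · obtain ⟨β, hβ⟩ := mul_surj g i k r
    have h1 : Res g i k (-(g.S.emb i k β * Gf g i k)) (-T.tau (tn _) r) := by
      have h2 := ((Res.gf (g := g) i k).mul β).neg
      rwa [mul_one, hβ] at h2
    obtain ⟨u, hu, eu⟩ := dl_surj a h1
    obtain ⟨v, hv, ev⟩ := dl_surj b h1
    have hm : ∀ (j : Ix) w, w ∈ WW g i j k → w ∈ WW g i n k := fun j w hw =>
      WW_ind (P := fun w => w ∈ WW g i n k) (zero_mem _)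
        (fun q ρ r h => tmul_mem (h.mono (𝟙 i) (tn j)) r) (fun _ _ => add_mem) hw
    obtain ⟨z, hz⟩ := (hn (u - v)).2
      ⟨sub_mem (hm a u hu) (hm b v hv), by rw [map_sub, eu, ev, sub_self]⟩
    have h3 := (key z u v hu hv hz).1
    rw [eu] at h3
    exact ⟨z, g.inj _ (neg_injective (h3.uniq h1))⟩

end

end Vale.Agent.P286ET6
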